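import Mathlib
import Vale.Agent.P078.OmegaAtom
import Vale.Agent.P078.Type3.Expect

/-! Threshold blocks of `f ↦ E (X f X)` without a trace and their limits. -/

noncomputable section

open scoped ComplexOrder
open Filter Topology

set_option linter.unusedSectionVars false

namespace Vale.Agent.P078.T3

universe u v

variable {M : Type u} [CStarAlgebra M] [PartialOrder M] [StarOrderedRing M]
  {Ω : Type v} [TopologicalSpace Ω] [CompactSpace Ω] [T2Space Ω] (T : SMasa M Ω)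

namespace SMasa

open TMasa (hull piece piece_idem sum_piece piece_orth nonneg_of_mem_hull nonpos_of_not_mem_hull)

lemma pos_mul_pos_of_le {a b : C(Ω, ℝ)} (h : a ≤ b) : T.pos a * T.pos b = T.pos a := by
  ext ω
  by_cases ha : ω ∈ hull a
  · have hb : ω ∈ hull b := closure_mono (fun y (hy : 0 < a y) => hy.trans_le (h y)) ha
    simp [pos_apply, ha, hb]
  · simp [pos_apply, ha]

lemma pos_mul_pos_eq_zero {a b : C(Ω, ℝ)} (h : ∀ ω, 0 < a ω → b ω ≤ 0) :
    T.pos a * T.pos b = 0 := by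
  have h0 : Disjoint {ω | 0 < a ω} {ω | 0 < b ω} :=
    Set.disjoint_left.2 fun ω ha hb => absurd (h ω ha) (not_le.2 hb)
  have h1 : Disjoint (hull a) {ω | 0 < b ω} :=
    h0.closure_left (isOpen_lt continuous_const b.continuous)
  have h2 : Disjoint (hull a) (hull b) := h1.closure_right (T.isClopen_hull a).isOpen
  ext ω
  by_cases ha : ω ∈ hull a
  · simp [pos_apply, Set.disjoint_left.1 h2 ha]
  · simp [pos_apply, ha]

/-- A selfadjoint element commuting with the idempotents of the subalgebra belongs to it. -/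
lemma mem_range_of_comm_idem {y : M} (hsa : IsSelfAdjoint y)
    (hc : ∀ e : C(Ω, ℝ), e * e = e → Commute y (T.emb e)) : ∃ f, T.emb f = y := by
  refine T.maximal y hsa fun g => ?_
  have hcl : IsClosed {z : M | Commute y z} :=
    isClosed_eq (continuous_const.mul continuous_id) (continuous_id.mul continuous_const)
  refine hcl.closure_subset (Metric.mem_closure_iff.2 fun ε hε => ?_)
  obtain ⟨P, c, hP, -⟩ := T.exists_step g (half_pos hε)
  refine ⟨T.emb (∑ i, c i • P.e i), ?_, ?_⟩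
  · simp only [Set.mem_ofPred_eq, map_sum, map_smul]
    exact Commute.sum_right _ _ _ fun i _ => (hc _ (P.isPartition.idem i)).smul_right _
  · rw [dist_eq_norm, ← map_sub, T.emb_norm]
    linarith


/-- `∑ l X r` -/
def blk (X : M) {ι : Type*} [Fintype ι] (l r : ι → C(Ω, ℝ)) : M :=
  ∑ k, T.emb (l k) * X * T.emb (r k)

variable {X : M}

lemma star_blk (hX : IsSelfAdjoint X) {ι : Type*} [Fintype ι] (l r : ι → C(Ω, ℝ)) :
    star (T.blk X l r) = T.blk X r l := by
  simp [blk, hX.star_eq, T.star_emb, mul_assoc]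

lemma blk_conj (hX : IsSelfAdjoint X) {ι : Type*} [Fintype ι] (l r : ι → C(Ω, ℝ))
    (hr : ∀ k m, k ≠ m → r k * r m = 0) (hr2 : ∀ k, r k * r k = r k) (g : C(Ω, ℝ)) :
    T.blk X l r * T.emb g * star (T.blk X l r) =
      ∑ k, T.emb (l k) * (X * T.emb (r k * g) * X) * T.emb (l k) := by
  rw [T.star_blk hX]
  simp only [blk, Finset.sum_mul, Finset.mul_sum]
  refine Finset.sum_congr rfl fun k _ => ?_
  have e : ∀ m, T.emb (l m) * X * T.emb (r m) * T.emb g * (T.emb (r k) * X * T.emb (l k)) =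
      T.emb (l m) * X * T.emb (r m * r k * g) * X * T.emb (l k) := by
    intro m
    rw [show r m * r k * g = r m * g * r k by ring, map_mul, map_mul]
    simp only [mul_assoc]
  simp only [e]
  rw [Finset.sum_eq_single k (fun m _ hm => by simp [hr m k hm]) (by simp), hr2]
  simp only [mul_assoc]

lemma ip_blk (hX : IsSelfAdjoint X) {ι κ : Type*} [Fintype ι] [Fintype κ] (l r : ι → C(Ω, ℝ))
    (l' r' : κ → C(Ω, ℝ))
    (h : ∀ m, (l' m = 0 ∨ r' m = 0) ∨ ∃ k₀, l k₀ * l' m = l' m ∧ r k₀ * r' m = r' m ∧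
      ∀ k, k ≠ k₀ → l k * l' m = 0 ∨ r k * r' m = 0) :
    T.ip (T.blk X l r) (T.blk X l' r') = ∑ m, T.tr (X * T.emb (l' m) * X * T.emb (r' m)) := by
  rw [ip, T.star_blk hX]
  simp only [blk, Finset.sum_mul, Finset.mul_sum, map_sum]
  refine Finset.sum_congr rfl fun m _ => ?_
  have e : ∀ k, T.tr (T.emb (r k) * X * T.emb (l k) * (T.emb (l' m) * X * T.emb (r' m))) =
      T.tr (X * T.emb (l k * l' m) * X * T.emb (r k * r' m)) := by
    intro k
    calc _ = T.tr (T.emb (r k) * (X * T.emb (l k) * T.emb (l' m) * X * T.emb (r' m))) := by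
          simp only [mul_assoc]
      _ = T.tr (X * T.emb (l k) * T.emb (l' m) * X * T.emb (r' m) * T.emb (r k)) :=
          T.central _ _
      _ = _ := by rw [mul_comm (r k) (r' m), map_mul T.emb, map_mul T.emb]; simp only [mul_assoc]
  simp only [e]
  rcases h m with h0 | ⟨k₀, h1, h2, h3⟩
  · rcases h0 with h0 | h0 <;> simp [h0]
  · rw [Finset.sum_eq_single k₀ (fun k _ hk => by rcases h3 k hk with h4 | h4 <;> simp [h4])
      (by simp), h1, h2]

lemma norm_blk_le (hX : IsSelfAdjoint X) {ι : Type*} [Fintype ι] (l r : ι → C(Ω, ℝ))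
    (hl : ∀ k m, k ≠ m → l k * l m = 0) (hl2 : ∀ k, l k * l k = l k)
    (hr : ∀ k m, k ≠ m → r k * r m = 0) (hr2 : ∀ k, r k * r k = r k) :
    ‖T.blk X l r‖ ≤ ‖X‖ := by
  have : Nontrivial M := ⟨0, 1, fun h => by simpa [← h] using T.tr_one⟩
  have hr1 : (∑ k, r k) * (∑ k, r k) = ∑ k, r k := by
    rw [Finset.sum_mul_sum]
    refine Finset.sum_congr rfl fun k _ => ?_
    rw [Finset.sum_eq_single k (fun m _ hm => hr k m hm.symm) (by simp), hr2]
  have e : star (T.blk X l r) * T.blk X l r =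
      ∑ k, T.emb (r k) * (X * T.emb (l k) * X) * T.emb (r k) := by
    have := T.blk_conj hX r l hl hl2 1
    rw [map_one, mul_one, T.star_blk hX r l] at this
    rw [T.star_blk hX]
    simpa using this
  have hb : ∀ k, X * T.emb (l k) * X ≤ algebraMap ℝ M (‖X‖ ^ 2) := by
    intro k
    have h1 := star_left_conjugate_le_conjugate (T.emb_mono (idem_le_one (hl2 k))) X
    rw [map_one, mul_one, hX.star_eq] at h1
    refine h1.trans ?_
    have := (IsSelfAdjoint.star_mul_self X).le_algebraMap_norm_self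
    rwa [CStarRing.norm_star_mul_self, ← pow_two, hX.star_eq] at this
  have key : star (T.blk X l r) * T.blk X l r ≤ algebraMap ℝ M (‖X‖ ^ 2) := by
    rw [e]
    calc _ ≤ ∑ k, T.emb (r k) * algebraMap ℝ M (‖X‖ ^ 2) * T.emb (r k) :=
          Finset.sum_le_sum fun k _ => (T.emb_selfAdjoint _).conjugate_le_conjugate (hb k)
      _ = ‖X‖ ^ 2 • T.emb (∑ k, r k) := by
          simp [Algebra.algebraMap_eq_smul_one, Finset.smul_sum, ← map_mul, hr2]
      _ ≤ ‖X‖ ^ 2 • T.emb 1 :=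
          smul_le_smul_of_nonneg_left (T.emb_mono (idem_le_one hr1)) (sq_nonneg _)
      _ = _ := by rw [map_one, Algebra.algebraMap_eq_smul_one]
  have h := CStarAlgebra.norm_le_norm_of_nonneg_of_le (star_mul_self_nonneg _) key
  rw [CStarRing.norm_star_mul_self, norm_algebraMap', Real.norm_eq_abs,
    abs_of_nonneg (sq_nonneg _), ← pow_two] at h
  exact (pow_le_pow_iff_left₀ (norm_nonneg _) (norm_nonneg _) two_ne_zero).1 h

/-! ### the threshold projections -/

lemma K_pos' (X : M) : IsPosMap (T.K X) := fun _ hh => T.K_nonneg X hh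

/-- where `K u` is more than half of `K f` and the latter is above the threshold -/
def chi (X : M) (η : ℝ) (f u : C(Ω, ℝ)) : C(Ω, ℝ) :=
  T.pos (T.K X u - (1 / 2 : ℝ) • T.K X f) * T.pos (T.K X f - η • (1 : C(Ω, ℝ)))

variable {η : ℝ}

lemma chi_idem (X : M) (η : ℝ) (f u : C(Ω, ℝ)) :
    T.chi X η f u * T.chi X η f u = T.chi X η f u := by
  unfold chi
  rw [mul_mul_mul_comm, T.pos_mul_self, T.pos_mul_self]

lemma chi_mono {f u u' : C(Ω, ℝ)} (h : u' ≤ u) :
    T.chi X η f u * T.chi X η f u' = T.chi X η f u' := by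
  unfold chi
  rw [mul_mul_mul_comm, T.pos_mul_self, mul_comm (T.pos _) (T.pos (T.K X u' - _)),
    T.pos_mul_pos_of_le]
  exact sub_le_sub_right ((T.K_pos' X).mono h) _

lemma chi_disjoint {f u u' : C(Ω, ℝ)} (h : u + u' ≤ f) :
    T.chi X η f u * T.chi X η f u' = 0 := by
  unfold chi
  rw [mul_mul_mul_comm, T.pos_mul_pos_eq_zero, zero_mul]
  intro ω hω
  have h1 : T.K X (u + u') ω ≤ T.K X f ω := (T.K_pos' X).mono h ω
  simp only [map_add, ContinuousMap.add_apply, ContinuousMap.sub_apply, ContinuousMap.smul_apply,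
    smul_eq_mul] at h1 hω ⊢
  linarith

variable (P₀ : Part Ω)

/-- threshold projection of a piece -/
def cc (X : M) (η : ℝ) (Q : Part Ω) (i : Fin Q.n) (j : Fin P₀.n) : C(Ω, ℝ) :=
  T.chi X η (P₀.e j) (piece P₀ Q i j)

/-- left projections of a block -/
def Lf (X : M) (η : ℝ) (Q : Part Ω) (j j' : Fin P₀.n) (k : Fin Q.n × Fin Q.n) : C(Ω, ℝ) :=
  piece P₀ Q k.2 j' * T.cc P₀ X η Q k.1 j

/-- right projections of a block -/
def Rf (X : M) (η : ℝ) (Q : Part Ω) (j j' : Fin P₀.n) (k : Fin Q.n × Fin Q.n) : C(Ω, ℝ) :=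
  T.Lf P₀ X η Q j' j k.swap

/-- the block of a pair of pieces of `P₀` -/
def pblk (X : M) (η : ℝ) (Q : Part Ω) (j j' : Fin P₀.n) : M :=
  T.blk X (T.Lf P₀ X η Q j j') (T.Rf P₀ X η Q j j')

lemma Lf_idem (Q : Part Ω) (j j' : Fin P₀.n) (k : Fin Q.n × Fin Q.n) :
    T.Lf P₀ X η Q j j' k * T.Lf P₀ X η Q j j' k = T.Lf P₀ X η Q j j' k := by
  rw [Lf, mul_mul_mul_comm, piece_idem, cc, T.chi_idem]

lemma Lf_orth (Q : Part Ω) (j j' : Fin P₀.n) (k m : Fin Q.n × Fin Q.n) (h : k ≠ m) :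
    T.Lf P₀ X η Q j j' k * T.Lf P₀ X η Q j j' m = 0 := by
  rw [Lf, Lf, mul_mul_mul_comm]
  by_cases h2 : k.2 = m.2
  · have h1 : k.1 ≠ m.1 := fun h1 => h (Prod.ext h1 h2)
    rw [cc, cc, T.chi_disjoint (X := X), mul_zero]
    intro ω
    have ha := Q.isPartition.orth _ _ h1
    have := DFunLike.congr_fun ha ω
    simp only [piece, ContinuousMap.add_apply, ContinuousMap.mul_apply,
      ContinuousMap.zero_apply] at this ⊢
    rcases idem_zero_or_one (Q.isPartition.idem k.1) ω with a | a <;>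
      rcases idem_zero_or_one (Q.isPartition.idem m.1) ω with b | b <;>
      rcases idem_zero_or_one (P₀.isPartition.idem j) ω with c | c <;>
      simp_all
  · rw [piece, piece, mul_mul_mul_comm (Q.e k.2), Q.isPartition.orth _ _ h2, zero_mul, zero_mul]

lemma pblk_star (hX : IsSelfAdjoint X) (Q : Part Ω) (j j' : Fin P₀.n) :
    star (T.pblk P₀ X η Q j j') = T.pblk P₀ X η Q j' j := by
  rw [pblk, T.star_blk hX, pblk, blk, blk, ← (Equiv.prodComm (Fin Q.n) (Fin Q.n)).sum_comp]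
  rfl

lemma norm_pblk_le (hX : IsSelfAdjoint X) (Q : Part Ω) (j j' : Fin P₀.n) :
    ‖T.pblk P₀ X η Q j j'‖ ≤ ‖X‖ :=
  T.norm_blk_le hX _ _ (T.Lf_orth P₀ Q j j') (T.Lf_idem P₀ Q j j')
    (fun k m h => T.Lf_orth P₀ Q j' j _ _ fun e => h (Prod.swap_injective e))
    (fun k => T.Lf_idem P₀ Q j' j _)

lemma ip_pblk (hX : IsSelfAdjoint X) {Q Q' : Part Ω} (hQ : Q ≤ Q') (j j' : Fin P₀.n) :
    T.ip (T.pblk P₀ X η Q j j') (T.pblk P₀ X η Q' j j') =
      ∑ m, T.tr (X * T.emb (T.Lf P₀ X η Q' j j' m) * X * T.emb (T.Rf P₀ X η Q' j j' m)) := by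
  refine T.ip_blk hX _ _ _ _ fun m => ?_
  by_cases h1 : Q'.e m.1 = 0
  · exact .inl (.inr (by simp [Rf, Lf, piece, h1]))
  by_cases h2 : Q'.e m.2 = 0
  · exact .inl (.inl (by simp [Lf, piece, h2]))
  obtain ⟨a, ha, ha'⟩ := Part.exists_parent hQ h1
  obtain ⟨b, hb, hb'⟩ := Part.exists_parent hQ h2
  have hsub : ∀ (i : Fin Q'.n) (c : Fin Q.n), Q'.e i * Q.e c = Q'.e i → ∀ l,
      piece P₀ Q c l * piece P₀ Q' i l = piece P₀ Q' i l ∧ piece P₀ Q' i l ≤ piece P₀ Q c l := by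
    intro i c hc l
    have e : piece P₀ Q c l * piece P₀ Q' i l = piece P₀ Q' i l := by
      rw [piece, piece, mul_mul_mul_comm, P₀.isPartition.idem, mul_comm (Q.e c), hc]
    refine ⟨e, fun ω => ?_⟩
    have e' := DFunLike.congr_fun e ω
    simp only [ContinuousMap.mul_apply] at e'
    rcases idem_zero_or_one (piece_idem P₀ Q c l) ω with u | u <;>
      rcases idem_zero_or_one (piece_idem P₀ Q' i l) ω with w | w <;>
      simp_all
  refine .inr ⟨(a, b), ?_, ?_, fun k hk => ?_⟩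
  · rw [Lf, Lf, mul_mul_mul_comm, (hsub m.2 b hb j').1, cc, cc,
      T.chi_mono (hsub m.1 a ha j).2]
  · rw [Rf, Rf, Lf, Lf, mul_mul_mul_comm]
    simp only [Prod.fst_swap, Prod.snd_swap]
    rw [(hsub m.1 a ha j).1, cc, cc, T.chi_mono (hsub m.2 b hb j').2]
  · by_cases hkb : k.2 = b
    · have hka : k.1 ≠ a := fun e => hk (Prod.ext e hkb)
      right
      simp only [Rf, Lf, Prod.snd_swap, piece]
      rw [mul_mul_mul_comm, mul_mul_mul_comm (Q.e k.1), mul_comm (Q.e k.1), ha' _ hka, zero_mul,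
        zero_mul]
    · left
      simp only [Lf, piece]
      rw [mul_mul_mul_comm, mul_mul_mul_comm (Q.e k.2), mul_comm (Q.e k.2), hb' _ hkb, zero_mul,
        zero_mul]

/-- limit blocks -/
lemma exists_pblk_limit (hX : IsSelfAdjoint X) (j j' : Fin P₀.n) :
    ∃ W : M, ‖W‖ ≤ ‖X‖ ∧ T.Tendsto2 atTop (fun Q => T.pblk P₀ X η Q j j') W := by
  have hdiff : ∀ Q Q' : Part Ω, Q ≤ Q' →
      T.n2 (T.pblk P₀ X η Q' j j' - T.pblk P₀ X η Q j j') ^ 2 =
        T.n2 (T.pblk P₀ X η Q j j') ^ 2 - T.n2 (T.pblk P₀ X η Q' j j') ^ 2 := by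
    intro Q Q' h
    have e1 := T.ip_pblk (η := η) P₀ hX h j j'
    have e2 := T.ip_pblk (η := η) P₀ hX (le_refl Q') j j'
    simp only [T.n2_sq, T.ip_sub_left, T.ip_sub_right, T.ip_comm (T.pblk P₀ X η Q' j j')
      (T.pblk P₀ X η Q j j'), e1, ← e2]
    ring
  have hbdd : BddBelow (Set.range fun Q => T.n2 (T.pblk P₀ X η Q j j') ^ 2) :=
    ⟨0, by rintro _ ⟨Q, rfl⟩; positivity⟩
  refine T.exists_limit _ ‖X‖ (fun Q => T.norm_pblk_le P₀ hX Q j j') fun ε hε => ?_
  obtain ⟨P, hP⟩ := exists_lt_of_ciInf_lt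
    (show (⨅ Q, T.n2 (T.pblk P₀ X η Q j j') ^ 2) <
        (⨅ Q, T.n2 (T.pblk P₀ X η Q j j') ^ 2) + ε ^ 2 by
      have : 0 < ε ^ 2 := pow_pos hε 2
      linarith)
  refine ⟨P, fun Q hQ => (pow_le_pow_iff_left₀ (T.n2_nonneg _) hε.le two_ne_zero).1 ?_⟩
  rw [hdiff P Q hQ]
  have := ciInf_le hbdd Q
  linarith

lemma pblk_conj (hX : IsSelfAdjoint X) (Q : Part Ω) (j j' : Fin P₀.n) (g : C(Ω, ℝ)) :
    T.pblk P₀ X η Q j j' * T.emb g * star (T.pblk P₀ X η Q j j') =
      ∑ k, T.emb (T.Lf P₀ X η Q j j' k) * (X * T.emb (T.Rf P₀ X η Q j j' k * g) * X) *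
        T.emb (T.Lf P₀ X η Q j j' k) :=
  T.blk_conj hX _ _ (fun k m h => T.Lf_orth P₀ Q j' j _ _ fun e => h (Prod.swap_injective e))
    (fun k => T.Lf_idem P₀ Q j' j _) g

/-- the limit of the adjoint blocks is the adjoint of the limit -/
lemma star_limit (hX : IsSelfAdjoint X) {j j' : Fin P₀.n} {W W' : M}
    (hW : T.Tendsto2 atTop (fun Q => T.pblk P₀ X η Q j j') W)
    (hW' : T.Tendsto2 atTop (fun Q => T.pblk P₀ X η Q j' j) W') : star W = W' := by
  have key : ∀ b : M, T.tr (b * star W) = T.tr (b * W') := by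
    intro b
    have h1 := (hW.mul_const T (star b) (C := ‖X‖)
      (.of_forall fun Q => T.norm_pblk_le P₀ hX Q j j')).tr_tendsto T
    have h2 := (hW'.const_mul T b).tr_tendsto T
    have e : ∀ y : M, T.tr (y * star b) = T.tr (b * star y) := fun y => by
      rw [← T.tr_star (y * star b), star_mul, star_star]
    simp only [e, T.pblk_star P₀ hX] at h1
    exact tendsto_nhds_unique h1 h2
  have h := key (star (star W - W'))
  exact sub_eq_zero.1 (T.tr_faithful _ (by rw [mul_sub, map_sub, h, sub_self]))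

lemma limit_conj_mem (hX : IsSelfAdjoint X) {j j' : Fin P₀.n} {W : M}
    (hW : T.Tendsto2 atTop (fun Q => T.pblk P₀ X η Q j j') W) {W' : M}
    (hW' : T.Tendsto2 atTop (fun Q => T.pblk P₀ X η Q j' j) W') (g : C(Ω, ℝ)) :
    ∃ f, T.emb f = W * T.emb g * star W := by
  refine T.mem_range_of_comm_idem ((T.emb_selfAdjoint g).conjugate W) fun p hp => ?_
  rw [T.star_limit P₀ hX hW hW']
  have hC : ∀ Q, ‖T.pblk P₀ X η Q j j' * T.emb g‖ ≤ ‖X‖ * ‖g‖ := fun Q =>
    (norm_mul_le _ _).trans (by rw [T.emb_norm]; gcongr; exact T.norm_pblk_le P₀ hX Q j j')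
  have hlim := (hW.mul_emb T g).mul T hW' hC
  refine (hlim.mul_emb T p).unique T ((hlim.const_mul T (T.emb p)).congr' T ?_)
  filter_upwards [eventually_ge_atTop (Part.split p hp)] with Q hQ
  rw [← T.pblk_star P₀ hX Q j j']
  simp only [T.pblk_conj P₀ hX, Finset.mul_sum, Finset.sum_mul]
  refine Finset.sum_congr rfl fun k _ => ?_
  have hl : T.Lf P₀ X η Q j j' k * p = T.Lf P₀ X η Q j j' k ∨
      T.Lf P₀ X η Q j j' k * p = 0 := by
    unfold Lf piece
    rw [show Q.e k.2 * P₀.e j' * T.cc P₀ X η Q k.1 j * p =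
      Q.e k.2 * p * (P₀.e j' * T.cc P₀ X η Q k.1 j) by ring]
    rcases Part.eq_or_zero_of_split hQ k.2 with h | h <;> rw [h]
    · exact .inl (mul_assoc _ _ _).symm
    · exact .inr (zero_mul _)
  set l := T.Lf P₀ X η Q j j' k with hl_def
  rw [← mul_assoc, ← mul_assoc, ← map_mul, mul_comm p, mul_assoc _ (T.emb l) (T.emb p), ← map_mul]
  rcases hl with h | h <;> rw [h] <;> simp


end SMasa

end Vale.Agent.P078.T3
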