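import Mathlib
import Vale.Agent.P078.Type3.Atom.Blocks

/-! The error of the threshold blocks without a trace. -/

noncomputable section

open scoped ComplexOrder
open Filter Topology

set_option linter.unusedSectionVars false

namespace Vale.Agent.P078.T3

universe u v

variable {M : Type u} [CStarAlgebra M] [PartialOrder M] [StarOrderedRing M]
  {Ω : Type v} [TopologicalSpace Ω] [CompactSpace Ω] [T2Space Ω] (T : SMasa M Ω)

namespace SMasa

open TMasa (hull piece piece_idem sum_piece piece_orth nonneg_of_mem_hull nonpos_of_not_mem_hull)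

variable {X : M} {η : ℝ} (P₀ : Part Ω)

/-- comparison of functions by the state -/
lemma le_of_tau_mul_le {a b : C(Ω, ℝ)} (h : ∀ g, 0 ≤ g → T.tau (g * a) ≤ T.tau (g * b)) :
    a ≤ b := by
  refine ContinuousMap.le_def.2 fun ω => ?_
  let g : C(Ω, ℝ) := ⟨fun y => max (a y - b y) 0, by fun_prop⟩
  have h1 := h g fun y => le_max_right _ _
  have h2 : g * (a - b) = g * g := by
    ext y
    show max (a y - b y) 0 * (a y - b y) = max (a y - b y) 0 * max (a y - b y) 0
    rcases le_total 0 (a y - b y) with hy | hy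
    · rw [max_eq_left hy]
    · rw [max_eq_right hy]; ring
  have h3 : T.tau (g * g) ≤ 0 := by
    rw [← h2, mul_sub, map_sub]; linarith
  rw [← T.n2_emb_sq] at h3
  have h4 := T.emb_inj ((T.eq_zero_of_n2 (pow_eq_zero_iff two_ne_zero |>.1
    (le_antisymm h3 (sq_nonneg _)))).trans (map_zero _).symm)
  have h5 : max (a ω - b ω) 0 = 0 := DFunLike.congr_fun h4 ω
  linarith [le_max_left (a ω - b ω) 0]

/-- the square of the expectation is below the expectation of the square -/
lemma E_sq_le (y : M) (ω : Ω) : T.E y ω ^ 2 ≤ T.E (star y * y) ω := by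
  simpa [T.E_one] using T.E_schwarz 1 y ω

lemma sum_loss_le (hη : 0 ≤ η) (Q : Part Ω) :
    ∑ s : Fin Q.n × Fin P₀.n, T.tau (((1 - T.cc P₀ X η Q s.1 s.2) * T.K X (piece P₀ Q s.1 s.2)) *
      ((1 - T.cc P₀ X η Q s.1 s.2) * T.K X (piece P₀ Q s.1 s.2))) ≤
    (∑ j, T.tau (T.K X (P₀.e j) * T.K X (P₀.e j))) -
      (∑ s : Fin Q.n × Fin P₀.n,
        T.tau (T.K X (piece P₀ Q s.1 s.2) * T.K X (piece P₀ Q s.1 s.2))) +
      η * T.tau (T.K X 1) := by
  have h1 : T.K X 1 = ∑ j, T.K X (P₀.e j) := by rw [← map_sum, P₀.isPartition.sum_one]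
  rw [h1, map_sum, Finset.mul_sum, Fintype.sum_prod_type_right,
    Fintype.sum_prod_type_right, ← Finset.sum_sub_distrib, ← Finset.sum_add_distrib]
  refine Finset.sum_le_sum fun j _ => ?_
  simp only [← map_sum T.tau]
  rw [← map_sub T.tau, show η * T.tau (T.K X (P₀.e j)) = T.tau (η • T.K X (P₀.e j)) by
    rw [map_smul, smul_eq_mul], ← map_add T.tau]
  refine T.tau_mono (ContinuousMap.le_def.2 fun ω => ?_)
  simp only [ContinuousMap.add_apply, ContinuousMap.sub_apply, ContinuousMap.sum_apply,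
    ContinuousMap.mul_apply, ContinuousMap.one_apply, ContinuousMap.smul_apply, smul_eq_mul]
  have hsum : T.K X (P₀.e j) ω = ∑ i, T.K X (piece P₀ Q i j) ω := by
    rw [← ContinuousMap.sum_apply, ← map_sum]
    unfold piece
    rw [Part.sum_mul_eq]
  have hb : ∀ i, 0 ≤ T.K X (piece P₀ Q i j) ω := fun i =>
    T.K_nonneg X (idem_nonneg (piece_idem P₀ Q i j)) ω
  have hc : ∀ i, T.cc P₀ X η Q i j ω = 0 ∨ T.cc P₀ X η Q i j ω = 1 := fun i =>
    idem_zero_or_one (T.chi_idem X η _ _) ω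
  set B := T.K X (P₀.e j) ω with hB
  have hle : ∀ i, T.K X (piece P₀ Q i j) ω ≤ B := fun i => by
    rw [hsum]; exact Finset.single_le_sum (fun k _ => hb k) (Finset.mem_univ i)
  have hB0 : 0 ≤ B := by rw [hsum]; exact Finset.sum_nonneg fun k _ => hb k
  have hsq : ∑ i, T.K X (piece P₀ Q i j) ω * B = B * B := by rw [← Finset.sum_mul, ← hsum]
  rcases le_or_gt B η with hBη | hBη
  · have h1 : ∀ i, (1 - T.cc P₀ X η Q i j ω) * T.K X (piece P₀ Q i j) ω *
        ((1 - T.cc P₀ X η Q i j ω) * T.K X (piece P₀ Q i j) ω) ≤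
        T.K X (piece P₀ Q i j) ω * T.K X (piece P₀ Q i j) ω := fun i => by
      rcases hc i with h | h <;> rw [h] <;> nlinarith [hb i]
    have h2 : ∀ i, T.K X (piece P₀ Q i j) ω * T.K X (piece P₀ Q i j) ω ≤
        T.K X (piece P₀ Q i j) ω * B := fun i => mul_le_mul_of_nonneg_left (hle i) (hb i)
    have h3 := Finset.sum_le_sum (s := Finset.univ) fun i _ => h1 i
    have h4 := Finset.sum_le_sum (s := Finset.univ) fun i _ => h2 i
    have h5 : B * B ≤ η * B := mul_le_mul_of_nonneg_right hBη hB0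
    linarith
  · have hpos : T.pos (T.K X (P₀.e j) - η • (1 : C(Ω, ℝ))) ω = 1 := by
      have : ω ∈ hull (T.K X (P₀.e j) - η • (1 : C(Ω, ℝ))) :=
        subset_closure (show 0 < (T.K X (P₀.e j) - η • (1 : C(Ω, ℝ))) ω by
          simp only [ContinuousMap.sub_apply, ContinuousMap.smul_apply, ContinuousMap.one_apply,
            smul_eq_mul]
          linarith)
      simp [pos_apply, this]
    have h1 : ∀ i, (1 - T.cc P₀ X η Q i j ω) * T.K X (piece P₀ Q i j) ω *
        ((1 - T.cc P₀ X η Q i j ω) * T.K X (piece P₀ Q i j) ω) ≤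
        T.K X (piece P₀ Q i j) ω * B - T.K X (piece P₀ Q i j) ω * T.K X (piece P₀ Q i j) ω := by
      intro i
      rcases hc i with h | h
      · rw [h]
        have hhalf : T.K X (piece P₀ Q i j) ω ≤ 1 / 2 * B := by
          simp only [cc, chi, ContinuousMap.mul_apply, hpos, mul_one] at h
          by_cases hm : ω ∈ hull (T.K X (piece P₀ Q i j) - (1 / 2 : ℝ) • T.K X (P₀.e j))
          · rw [pos_apply, Set.indicator_of_mem hm] at h
            simp at h
          · simpa [sub_nonpos] using nonpos_of_not_mem_hull hm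
        nlinarith [hb i]
      · rw [h]
        nlinarith [hb i, hle i]
    have h3 := Finset.sum_le_sum (s := Finset.univ) fun i _ => h1 i
    rw [Finset.sum_sub_distrib, hsq] at h3
    nlinarith

/-- the conjugations by the blocks, followed by the expectation -/
def atomic (X : M) (η : ℝ) (Q : Part Ω) (h : C(Ω, ℝ)) : C(Ω, ℝ) :=
  ∑ k : Fin P₀.n × Fin P₀.n,
    T.E (T.pblk P₀ X η Q k.1 k.2 * T.emb h * star (T.pblk P₀ X η Q k.1 k.2))

lemma atomic_eq (hX : IsSelfAdjoint X) (Q : Part Ω) (h : C(Ω, ℝ)) :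
    T.atomic P₀ X η Q h = ∑ s : Fin Q.n × Fin P₀.n, ∑ s' : Fin Q.n × Fin P₀.n,
      piece P₀ Q s'.1 s'.2 * (T.cc P₀ X η Q s.1 s.2 *
        T.K X (piece P₀ Q s.1 s.2 * T.cc P₀ X η Q s'.1 s'.2 * h)) := by
  unfold atomic
  have e : ∀ j j', T.E (T.pblk P₀ X η Q j j' * T.emb h * star (T.pblk P₀ X η Q j j')) =
      ∑ i, ∑ i', piece P₀ Q i' j' * (T.cc P₀ X η Q i j *
        T.K X (piece P₀ Q i j * T.cc P₀ X η Q i' j' * h)) := by
    intro j j'
    rw [T.pblk_conj P₀ hX, map_sum, Fintype.sum_prod_type]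
    refine Finset.sum_congr rfl fun i _ => Finset.sum_congr rfl fun i' _ => ?_
    rw [T.E_mul_emb, T.E_emb_mul, ← mul_assoc, T.Lf_idem, T.K_apply, hX.star_eq]
    simp only [Lf, Rf, Prod.swap_prod_mk, mul_assoc]
  simp only [e, Fintype.sum_prod_type]
  refine (Finset.sum_congr rfl fun j _ => Finset.sum_comm).trans (Finset.sum_comm.trans ?_)
  exact Finset.sum_congr rfl fun i _ => Finset.sum_congr rfl fun j _ => Finset.sum_comm

lemma atomic_bounds (hX : IsSelfAdjoint X) (Q : Part Ω) {h : C(Ω, ℝ)} (hh : 0 ≤ h) :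
    T.atomic P₀ X η Q h ≤ T.K X h ∧ T.K X h - T.atomic P₀ X η Q h ≤
      (∑ s : Fin Q.n × Fin P₀.n,
        (1 - T.cc P₀ X η Q s.1 s.2) * T.K X (piece P₀ Q s.1 s.2 * h)) +
      ∑ s : Fin Q.n × Fin P₀.n,
        piece P₀ Q s.1 s.2 * T.K X ((1 - T.cc P₀ X η Q s.1 s.2) * h) := by
  set u := fun s : Fin Q.n × Fin P₀.n => piece P₀ Q s.1 s.2 with hu
  set c := fun s : Fin Q.n × Fin P₀.n => T.cc P₀ X η Q s.1 s.2 with hc
  have hu0 : ∀ s, 0 ≤ u s := fun s => idem_nonneg (piece_idem P₀ Q s.1 s.2)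
  have hc0 : ∀ s, 0 ≤ c s := fun s => idem_nonneg (T.chi_idem X η _ _)
  have hc1 : ∀ s, c s ≤ 1 := fun s => idem_le_one (T.chi_idem X η _ _)
  have hsum : ∑ s, u s = 1 := sum_piece P₀ Q
  have hK : T.K X h = ∑ s, ∑ s', u s' * T.K X (u s * h) := by
    simp only [← Finset.sum_mul, hsum, one_mul]
    rw [← map_sum, ← Finset.sum_mul, hsum, one_mul]
  have hA : T.atomic P₀ X η Q h = ∑ s, ∑ s', u s' * (c s * T.K X (u s * c s' * h)) :=
    T.atomic_eq P₀ hX Q h
  have hR : (∑ s, (1 - c s) * T.K X (u s * h)) + ∑ s', u s' * T.K X ((1 - c s') * h) =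
      ∑ s, ∑ s', u s' * ((1 - c s) * T.K X (u s * h) + T.K X (u s * (1 - c s') * h)) := by
    simp only [mul_add, Finset.sum_add_distrib]
    congr 1
    · simp only [← Finset.sum_mul, hsum, one_mul]
    · rw [Finset.sum_comm]
      refine Finset.sum_congr rfl fun s' _ => ?_
      rw [← Finset.mul_sum, ← map_sum]
      simp only [mul_assoc]
      rw [← Finset.sum_mul, hsum, one_mul]
  have hpt : ∀ s s', c s * T.K X (u s * c s' * h) ≤ T.K X (u s * h) ∧
      T.K X (u s * h) - c s * T.K X (u s * c s' * h) ≤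
        (1 - c s) * T.K X (u s * h) + T.K X (u s * (1 - c s') * h) := by
    intro s s'
    have hb : 0 ≤ T.K X (u s * c s' * h) :=
      T.K_nonneg X (mul_nonneg' (mul_nonneg' (hu0 s) (hc0 s')) hh)
    have hd : 0 ≤ T.K X (u s * (1 - c s') * h) :=
      T.K_nonneg X (mul_nonneg' (mul_nonneg' (hu0 s) (sub_nonneg.2 (hc1 s'))) hh)
    have hsplit : T.K X (u s * (1 - c s') * h) = T.K X (u s * h) - T.K X (u s * c s' * h) := by
      rw [← map_sub]; congr 1; ring
    rw [hsplit] at hd ⊢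
    refine ⟨fun ω => ?_, fun ω => ?_⟩
    · show c s ω * T.K X (u s * c s' * h) ω ≤ T.K X (u s * h) ω
      have b1 : (0 : ℝ) ≤ T.K X (u s * c s' * h) ω := hb ω
      have b2 : (0 : ℝ) ≤ T.K X (u s * h) ω - T.K X (u s * c s' * h) ω := hd ω
      have b4 : c s ω ≤ (1 : ℝ) := hc1 s ω
      nlinarith
    · show T.K X (u s * h) ω - c s ω * T.K X (u s * c s' * h) ω ≤
        (1 - c s ω) * T.K X (u s * h) ω + (T.K X (u s * h) ω - T.K X (u s * c s' * h) ω)
      have b2 : (0 : ℝ) ≤ T.K X (u s * h) ω - T.K X (u s * c s' * h) ω := hd ω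
      have b4 : c s ω ≤ (1 : ℝ) := hc1 s ω
      nlinarith [mul_nonneg (sub_nonneg.2 b4) b2]
  constructor
  · rw [hK, hA]
    exact Finset.sum_le_sum fun s _ => Finset.sum_le_sum fun s' _ =>
      mul_mono' (hu0 s') (hpt s s').1
  · show _ ≤ (∑ s, (1 - c s) * T.K X (u s * h)) + ∑ s, u s * T.K X ((1 - c s) * h)
    rw [hR, hK, hA, ← Finset.sum_sub_distrib]
    refine Finset.sum_le_sum fun s _ => ?_
    rw [← Finset.sum_sub_distrib]
    refine Finset.sum_le_sum fun s' _ => ?_
    rw [← mul_sub]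
    exact mul_mono' (hu0 s') (hpt s s').2

/-- first error term -/
def lossL (X : M) (η : ℝ) (Q : Part Ω) (h : C(Ω, ℝ)) : C(Ω, ℝ) :=
  ∑ s : Fin Q.n × Fin P₀.n, (1 - T.cc P₀ X η Q s.1 s.2) * T.K X (piece P₀ Q s.1 s.2 * h)

/-- second error term -/
def lossR (X : M) (η : ℝ) (Q : Part Ω) (h : C(Ω, ℝ)) : C(Ω, ℝ) :=
  ∑ s : Fin Q.n × Fin P₀.n, piece P₀ Q s.1 s.2 * T.K X ((1 - T.cc P₀ X η Q s.1 s.2) * h)

/-- total loss at a partition -/
def loss (X : M) (η : ℝ) (Q : Part Ω) : ℝ :=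
  ∑ s : Fin Q.n × Fin P₀.n, T.tau (((1 - T.cc P₀ X η Q s.1 s.2) * T.K X (piece P₀ Q s.1 s.2)) *
    ((1 - T.cc P₀ X η Q s.1 s.2) * T.K X (piece P₀ Q s.1 s.2)))

lemma loss_le (hη : 0 ≤ η) (Q : Part Ω) :
    T.loss P₀ X η Q ≤ (∑ j, T.tau (T.K X (P₀.e j) * T.K X (P₀.e j))) -
      (∑ j, T.tau (T.K X ((Q.inter P₀).e j) * T.K X ((Q.inter P₀).e j))) +
      η * T.tau (T.K X 1) := by
  have e : ∑ j, T.tau (T.K X ((Q.inter P₀).e j) * T.K X ((Q.inter P₀).e j)) =
      ∑ s : Fin Q.n × Fin P₀.n,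
        T.tau (T.K X (piece P₀ Q s.1 s.2) * T.K X (piece P₀ Q s.1 s.2)) :=
    finProdFinEquiv.symm.sum_comp (fun s : Fin Q.n × Fin P₀.n =>
      T.tau (T.K X (piece P₀ Q s.1 s.2) * T.K X (piece P₀ Q s.1 s.2)))
  rw [e]
  exact T.sum_loss_le P₀ hη Q

lemma sum_lossL_sq_le {Q R : Part Ω} (hR : Q.inter P₀ ≤ R) :
    ∑ i, T.tau (T.lossL P₀ X η Q (R.e i) * T.lossL P₀ X η Q (R.e i)) ≤ T.loss P₀ X η Q := by
  set a := fun (s : Fin Q.n × Fin P₀.n) (i : Fin R.n) =>
    (1 - T.cc P₀ X η Q s.1 s.2) * T.K X (piece P₀ Q s.1 s.2 * R.e i) with ha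
  have h1 : ∀ i, T.lossL P₀ X η Q (R.e i) * T.lossL P₀ X η Q (R.e i) = ∑ s, a s i * a s i := by
    intro i
    show (∑ s, a s i) * (∑ s, a s i) = _
    by_cases hi : R.e i = 0
    · simp [ha, hi]
    obtain ⟨k, -, hk⟩ := Part.exists_parent hR hi
    have hz : ∀ s, s ≠ finProdFinEquiv.symm k → a s i = 0 := by
      intro s hs
      have h2 := hk (finProdFinEquiv s) fun e => hs (by rw [← e, Equiv.symm_apply_apply])
      simp only [Part.inter, Equiv.symm_apply_apply] at h2
      simp only [ha, piece]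
      rw [mul_comm (Q.e s.1 * P₀.e s.2), h2, map_zero, mul_zero]
    rw [Finset.sum_eq_single (finProdFinEquiv.symm k) (fun s _ hs => hz s hs) (by simp),
      Finset.sum_eq_single (finProdFinEquiv.symm k) (fun s _ hs => by simp [hz s hs]) (by simp)]
  have h2 : ∀ s, ∑ i, a s i = (1 - T.cc P₀ X η Q s.1 s.2) * T.K X (piece P₀ Q s.1 s.2) := by
    intro s
    simp only [ha]
    rw [← Finset.mul_sum, ← map_sum, ← Finset.mul_sum, R.isPartition.sum_one, mul_one]
  simp only [h1, map_sum]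
  rw [Finset.sum_comm, loss]
  refine Finset.sum_le_sum fun s _ => ?_
  rw [← h2, ← map_sum T.tau]
  refine T.tau_mono (ContinuousMap.le_def.2 fun ω => ?_)
  simp only [← pow_two, ContinuousMap.sum_apply, ContinuousMap.pow_apply]
  refine Finset.sum_sq_le_sq_sum_of_nonneg (f := fun i => a s i ω) fun i _ => ?_
  exact mul_nonneg' (sub_nonneg.2 (idem_le_one (T.chi_idem X η _ _)))
    (T.K_nonneg X (mul_nonneg' (idem_nonneg (piece_idem P₀ Q s.1 s.2)) (R.nonneg i))) ω

lemma sum_lossR_sq_le (hX : IsSelfAdjoint X) (hη : 0 ≤ η) (Q : Part Ω) {ε θ d : ℝ} (hε : 0 < ε)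
    (hθ : 0 < θ) (hd : ∀ y : M, 0 ≤ y → y ≤ 1 → T.tr y ≤ d → T.tr (star X * y * X) ≤ ε)
    (hloss : T.loss P₀ X η Q ≤ d * θ ^ 2) :
    ∀ᶠ R : Part Ω in atTop,
      ∑ i, T.tau (T.lossR P₀ X η Q (R.e i) * T.lossR P₀ X η Q (R.e i)) ≤
        θ * T.tau (T.K X 1) + ‖X‖ ^ 2 * ε + ε := by
  set u := fun s : Fin Q.n × Fin P₀.n => piece P₀ Q s.1 s.2 with hu
  set o := fun s : Fin Q.n × Fin P₀.n => 1 - T.cc P₀ X η Q s.1 s.2 with ho
  have huu : ∀ s, u s * u s = u s := fun s => piece_idem P₀ Q s.1 s.2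
  have hu0 : ∀ s, 0 ≤ u s := fun s => idem_nonneg (huu s)
  have hoo : ∀ s, o s * o s = o s := fun s => by
    have := T.chi_idem X η (P₀.e s.2) (piece P₀ Q s.1 s.2)
    simp only [ho, cc, sub_mul, mul_sub, one_mul, mul_one, this]
    ring
  set Y := fun s => T.emb (o s) * (X * T.emb (u s) * X) * T.emb (o s) with hY
  have hYsa : ∀ s, IsSelfAdjoint (Y s) := fun s => by
    simp [hY, isSelfAdjoint_iff, T.star_emb, hX.star_eq, mul_assoc]
  set g := fun s => o s * T.K X (u s) with hg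
  have hEY : ∀ s, T.E (Y s) = g s := fun s => by
    simp only [hY, hg]
    rw [T.E_mul_emb, T.E_emb_mul, ← mul_assoc, hoo, T.K_apply, hX.star_eq]
  have hbound : ∀ R : Part Ω, ∑ i, T.tau (T.lossR P₀ X η Q (R.e i) * T.lossR P₀ X η Q (R.e i)) ≤
      ∑ s, T.tr (T.emb (u s) * (X * T.pinch R (Y s) * X)) := by
    intro R
    have e : ∀ i, T.lossR P₀ X η Q (R.e i) * T.lossR P₀ X η Q (R.e i) =
        ∑ s, (u s * T.K X (o s * R.e i)) * (u s * T.K X (o s * R.e i)) := by
      intro i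
      show (∑ s, u s * T.K X (o s * R.e i)) * (∑ s, u s * T.K X (o s * R.e i)) = _
      rw [Finset.sum_mul_sum]
      refine Finset.sum_congr rfl fun s _ => ?_
      rw [Finset.sum_eq_single s (fun t _ ht => ?_) (by simp)]
      rw [mul_mul_mul_comm, piece_orth P₀ Q s t ht.symm, zero_mul]
    simp only [e, map_sum]
    rw [Finset.sum_comm]
    refine Finset.sum_le_sum fun s _ => ?_
    rw [pinch_apply, Finset.mul_sum, Finset.sum_mul, Finset.mul_sum, map_sum]
    refine Finset.sum_le_sum fun i _ => ?_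
    set w := T.emb (u s) * (X * T.emb (o s * R.e i) * X) * T.emb (u s) with hw
    have hidem : o s * R.e i * (o s * R.e i) = o s * R.e i := by
      rw [mul_mul_mul_comm, hoo, R.isPartition.idem]
    have hu2 : T.emb (u s) * T.emb (u s) = T.emb (u s) := by rw [← map_mul, huu]
    have hEw : T.E w = u s * T.K X (o s * R.e i) := by
      rw [hw, T.E_mul_emb, T.E_emb_mul, ← mul_assoc, huu, T.K_apply, hX.star_eq]
    have hww : star w * w = T.emb (u s) *
        (X * (T.emb (R.e i) * Y s * T.emb (R.e i)) * X) * T.emb (u s) := by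
      have hws : star w = w := by simp only [hw, star_mul, T.star_emb, hX.star_eq, mul_assoc]
      rw [hws, hw]
      calc _ = T.emb (u s) * (X * (T.emb (o s * R.e i) * X * (T.emb (u s) * T.emb (u s)) * X *
            T.emb (o s * R.e i)) * X) * T.emb (u s) := by simp only [mul_assoc]
        _ = _ := by
          rw [hu2, map_mul T.emb (o s)]
          nth_rw 1 [(T.emb_comm (o s) (R.e i)).eq]
          simp only [hY, mul_assoc]
    have h1 : (u s * T.K X (o s * R.e i)) * (u s * T.K X (o s * R.e i)) ≤ T.E (star w * w) := by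
      refine ContinuousMap.le_def.2 fun ω => ?_
      have := T.E_sq_le w ω
      rw [hEw] at this
      simpa [pow_two] using this
    refine (T.tau_mono h1).trans (le_of_eq ?_)
    rw [T.tau_E, hww, ← T.central (u s), ← mul_assoc (T.emb (u s)) (T.emb (u s)), hu2]
  have hlim : Tendsto (fun R => ∑ s, T.tr (T.emb (u s) * (X * T.pinch R (Y s) * X))) atTop
      (𝓝 (∑ s, T.tau (u s * T.K X (g s)))) := by
    refine tendsto_finsetSum _ fun s _ => ?_
    have h := ((((T.tendsto_pinch (hYsa s)).const_mul T X).mul_const T X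
      (C := ‖X‖ * ‖Y s‖) (.of_forall fun R => (norm_mul_le _ _).trans
        (mul_le_mul_of_nonneg_left (T.norm_pinch_le R (Y s)) (norm_nonneg X)))).const_mul T
          (T.emb (u s))).tr_tendsto T
    convert h using 2
    rw [hEY, T.K_apply, hX.star_eq, T.tau_mul_E]
  -- the limit is small
  set c := ‖X‖ ^ 2 with hc
  have hK1 : T.K X 1 ≤ c • (1 : C(Ω, ℝ)) := by
    refine ContinuousMap.le_def.2 fun ω => ?_
    rw [T.K_apply, map_one, mul_one, hX.star_eq]
    have := (le_abs_self _).trans (T.E_le_norm (x := X * X)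
      (by rw [isSelfAdjoint_iff, star_mul, hX.star_eq]) ω)
    refine this.trans ?_
    simp only [ContinuousMap.smul_apply, ContinuousMap.one_apply, smul_eq_mul, mul_one, hc]
    rw [pow_two]; exact norm_mul_le X X
  have hK1u : ∀ s, 0 ≤ T.K X (u s) := fun s => T.K_nonneg X (hu0 s)
  have ho0 : ∀ s, 0 ≤ o s := fun s => idem_nonneg (hoo s)
  have hg0 : ∀ s, 0 ≤ g s := fun s => mul_nonneg' (ho0 s) (hK1u s)
  have hgc : ∀ s ω, g s ω ≤ c := fun s ω => by
    have h1 : T.K X (u s) ω ≤ T.K X 1 ω :=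
      (T.K_pos' X).mono (idem_le_one (huu s)) ω
    have h2 : T.K X 1 ω ≤ c := by simpa using hK1 ω
    have h3 : o s ω ≤ 1 := idem_le_one (hoo s) ω
    have h4 : 0 ≤ T.K X (u s) ω := hK1u s ω
    show o s ω * T.K X (u s) ω ≤ c
    nlinarith
  set χ := T.pos ((∑ s, g s * g s) - θ ^ 2 • (1 : C(Ω, ℝ))) with hχ
  have hχ0 : 0 ≤ χ := idem_nonneg (T.pos_mul_self _)
  have hχτ : T.tau χ ≤ d := by
    have h : θ ^ 2 • χ ≤ ∑ s, g s * g s := by
      refine ContinuousMap.le_def.2 fun ω => ?_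
      by_cases hm : ω ∈ hull ((∑ s, g s * g s) - θ ^ 2 • (1 : C(Ω, ℝ)))
      · have := nonneg_of_mem_hull hm
        simp [hχ, pos_apply, hm] at this ⊢
        linarith
      · simp only [hχ, ContinuousMap.smul_apply, pos_apply, Set.indicator_of_notMem hm,
          smul_eq_mul, mul_zero, ContinuousMap.sum_apply, ContinuousMap.mul_apply]
        exact Finset.sum_nonneg fun s _ => mul_self_nonneg _
    have h2 := T.tau_mono h
    rw [map_smul, smul_eq_mul, map_sum] at h2
    have h3 : ∑ s, T.tau (g s * g s) = T.loss P₀ X η Q := rfl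
    rw [h3] at h2
    exact le_of_mul_le_mul_left (by linarith) (pow_pos hθ 2)
  have hsplit : ∀ s, g s ≤ θ • (1 : C(Ω, ℝ)) + c • χ := by
    intro s
    refine ContinuousMap.le_def.2 fun ω => ?_
    by_cases hm : ω ∈ hull ((∑ s, g s * g s) - θ ^ 2 • (1 : C(Ω, ℝ)))
    · simp only [hχ, ContinuousMap.add_apply, ContinuousMap.smul_apply, ContinuousMap.one_apply,
        pos_apply, Set.indicator_of_mem hm, Pi.one_apply, smul_eq_mul, mul_one]
      linarith [hgc s ω]
    · have h1 := nonpos_of_not_mem_hull hm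
      simp only [ContinuousMap.sub_apply, ContinuousMap.smul_apply, ContinuousMap.one_apply,
        ContinuousMap.sum_apply, ContinuousMap.mul_apply, smul_eq_mul, mul_one] at h1
      have h2 : g s ω * g s ω ≤ ∑ t, g t ω * g t ω :=
        Finset.single_le_sum (fun t _ => mul_self_nonneg (g t ω)) (Finset.mem_univ s)
      simp only [hχ, ContinuousMap.add_apply, ContinuousMap.smul_apply, ContinuousMap.one_apply,
        pos_apply, Set.indicator_of_notMem hm, smul_eq_mul, mul_one, mul_zero, add_zero]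
      have h3 : g s ω ^ 2 ≤ θ ^ 2 := by rw [pow_two (g s ω)]; linarith
      exact (pow_le_pow_iff_left₀ (hg0 s ω) hθ.le two_ne_zero).1 h3
  have hval : ∑ s, T.tau (u s * T.K X (g s)) ≤ θ * T.tau (T.K X 1) + c * ε := by
    refine (Finset.sum_le_sum fun s _ => T.tau_mono
      (mul_mono' (hu0 s) ((T.K_pos' X).mono (hsplit s)))).trans ?_
    rw [← map_sum T.tau, ← Finset.sum_mul, sum_piece P₀ Q, one_mul]
    simp only [map_add, map_smul, smul_eq_mul]
    refine add_le_add le_rfl (mul_le_mul_of_nonneg_left ?_ (sq_nonneg _))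
    rw [T.K_apply, T.tau_E, hX.star_eq]
    have := hd (T.emb χ) (T.emb_nonneg hχ0)
      (by simpa using T.emb_mono (idem_le_one (T.pos_mul_self _) : χ ≤ 1)) hχτ
    rwa [hX.star_eq] at this
  filter_upwards [hlim.eventually (gt_mem_nhds (show ∑ s, T.tau (u s * T.K X (g s)) <
    θ * T.tau (T.K X 1) + c * ε + ε by linarith))] with R hR
  exact (hbound R).trans hR.le

lemma sum_diff_sq_le {d d' : M} {C : ℝ} (hd : ‖d‖ ≤ C) (hd' : ‖d'‖ ≤ C) (R : Part Ω) :
    ∑ i, T.tau (T.E (d * T.emb (R.e i) * star d - d' * T.emb (R.e i) * star d') *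
        T.E (d * T.emb (R.e i) * star d - d' * T.emb (R.e i) * star d')) ≤
      4 * C ^ 2 * T.n2 (star (d - d')) ^ 2 := by
  have hC : 0 ≤ C := (norm_nonneg d).trans hd
  set D := d - d' with hD
  set A := fun i => T.E (D * T.emb (R.e i) * star D) with hA
  have key : ∀ i ω, T.E (d * T.emb (R.e i) * star d - d' * T.emb (R.e i) * star d') ω *
      T.E (d * T.emb (R.e i) * star d - d' * T.emb (R.e i) * star d') ω ≤ 4 * C ^ 2 * A i ω := by
    intro i ω
    set e := T.emb (R.e i) with he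
    have hee : e * e = e := by rw [he, ← map_mul, R.isPartition.idem]
    have he1 : ‖e‖ ≤ 1 := by
      rw [he, T.emb_norm, ContinuousMap.norm_le _ zero_le_one]
      intro y
      rcases idem_zero_or_one (R.isPartition.idem i) y with h | h <;> simp [h]
    have hA' : T.E (star (e * star D) * (e * star D)) ω = A i ω := by
      simp only [hA]
      rw [star_mul, star_star, he, T.star_emb, ← he, mul_assoc D, ← mul_assoc e e, hee, mul_assoc]
    have hB : ∀ z : M, ‖z‖ ≤ C → T.E (star (e * star z) * (e * star z)) ω ≤ C ^ 2 := fun z hz => by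
      refine ((le_abs_self _).trans (T.E_le_norm (IsSelfAdjoint.star_mul_self _) ω)).trans ?_
      rw [CStarRing.norm_star_mul_self, ← pow_two]
      refine pow_le_pow_left₀ (norm_nonneg _) ((norm_mul_le _ _).trans ?_) 2
      rw [norm_star]
      exact (mul_le_mul he1 hz (norm_nonneg _) zero_le_one).trans_eq (one_mul C)
    have hterm : ∀ z : M, ‖z‖ ≤ C → T.E (D * e * star z) ω ^ 2 ≤ C ^ 2 * A i ω := by
      intro z hz
      have h := T.E_schwarz (e * star D) (e * star z) ω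
      rw [hA', star_mul, star_star, he, T.star_emb, ← he, mul_assoc D, ← mul_assoc e e, hee,
        ← mul_assoc] at h
      refine h.trans ?_
      rw [mul_comm]
      have h0 : 0 ≤ A i ω := by
        simp only [hA]
        exact T.E_nonneg (star_right_conjugate_nonneg (T.emb_nonneg (R.nonneg i)) D) ω
      exact mul_le_mul_of_nonneg_right (hB z hz) h0
    have e2 : T.E (d' * e * star D) = T.E (D * e * star d') := by
      rw [← T.E_star, star_mul, star_mul, star_star, he, T.star_emb, ← he, mul_assoc]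
    have e1 : T.E (d * e * star d - d' * e * star d') ω
        = T.E (D * e * star d) ω + T.E (D * e * star d') ω := by
      rw [← e2, ← ContinuousMap.add_apply, ← map_add]
      congr 2
      simp only [hD, star_sub, sub_mul, mul_sub]
      abel
    rw [e1]
    nlinarith [hterm d hd, hterm d' hd', sq_nonneg (T.E (D * e * star d) ω - T.E (D * e * star d') ω)]
  calc _ ≤ ∑ i, T.tau ((4 * C ^ 2) • A i) := Finset.sum_le_sum fun i _ =>
        T.tau_mono fun ω => by simpa using key i ω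
    _ = _ := by
      rw [← map_sum, ← Finset.smul_sum, map_smul, smul_eq_mul]
      congr 1
      simp only [hA]
      rw [← map_sum, ← Finset.sum_mul, ← Finset.mul_sum, ← map_sum, R.isPartition.sum_one,
        map_one, mul_one, T.tau_E, T.n2_sq, ip, star_star]

end SMasa

end Vale.Agent.P078.T3
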