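import Mathlib
import Vale.Agent.P078.Type3.Specs
import Vale.Agent.P078.Type3.Atom.Loss

/-! The atomic part of `f ↦ E (X f X)` by graphs. -/

noncomputable section

open scoped ComplexOrder
open Filter Topology Classical

set_option linter.unusedSectionVars false

namespace Vale.Agent.P078.T3

universe u v w

variable {M : Type u} [CStarAlgebra M] [PartialOrder M] [StarOrderedRing M]
  {Ω : Type v} [TopologicalSpace Ω] [CompactSpace Ω] [T2Space Ω]

/-- the weighted graph given by a normaliser, on both sides -/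
def GraphOf (T : SMasa M Ω) : Prop :=
  ∀ (W : M) (a a' : C(Ω, ℝ)), star W * W = T.emb a' → W * star W = T.emb a →
    (∀ f, ∃ h, W * T.emb f * star W = T.emb h) → (∀ f, ∃ h, star W * T.emb f * W = T.emb h) →
    ∀ η : ℝ, 0 < η → ∃ (g : GElt T) (c : C(Ω, ℝ)), 0 ≤ c ∧
      (∀ f, 0 ≤ f → T.emb (c * g.ran * f.comp g.toDom) ≤ W * T.emb f * star W) ∧
      (∀ f, 0 ≤ f → T.emb ((c * f).comp g.toRan * g.dom) ≤ star W * T.emb f * W) ∧
      T.tau (a - c * g.ran) ≤ η ∧ T.tau (a' - c.comp g.toRan * g.dom) ≤ η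

namespace GOp

variable {T : SMasa M Ω}

/-- a symmetrisation: each term together with its transpose -/
def symHalf (S : GOp T Unit Unit) : GOp T Unit Unit := smul (1 / 2) (add S (tp S))

lemma ker_flip (t : Term T Unit Unit) (x y : Ω × Unit) :
    (if t.g.inv.toDom x.1 = y.1 then t.coef (t.g.toRan x.1) * t.g.inv.ran x.1 else 0)
      = if t.g.toDom y.1 = x.1 then t.coef y.1 * t.g.ran y.1 else 0 := by
  show (if t.g.toRan x.1 = y.1 then t.coef (t.g.toRan x.1) * t.g.dom x.1 else 0) = _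
  rcases idem_zero_or_one t.g.dom_idem x.1 with h | h
  · rw [h, mul_zero, ite_self]
    split_ifs with h1
    · rcases idem_zero_or_one t.g.ran_idem y.1 with h2 | h2
      · rw [h2, mul_zero]
      · have := t.g.dom_toDom _ h2
        rw [h1, h] at this
        exact absurd this zero_ne_one
    · rfl
  · by_cases h1 : t.g.toRan x.1 = y.1
    · have h2 := t.g.toDom_toRan _ h
      rw [h1] at h2
      rw [if_pos h1, if_pos h2, h, ← h1, t.g.ran_toRan _ h]
    · rw [if_neg h1]
      split_ifs with h3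
      · rcases idem_zero_or_one t.g.ran_idem y.1 with h4 | h4
        · rw [h4, mul_zero]
        · exact absurd (h3 ▸ t.g.toRan_toDom _ h4) h1
      · rfl

lemma ker_symHalf (S : GOp T Unit Unit) (x y : Ω × Unit) :
    (symHalf S).ker x y = (symHalf S).ker y x := by
  simp only [symHalf, ker, smul, add, tp, List.map_append, List.map_map, List.sum_append,
    Function.comp_def, ContinuousMap.smul_apply, ContinuousMap.comp_apply, smul_eq_mul,
    Subsingleton.elim x.2 (), Subsingleton.elim y.2 (), true_and]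
  have e : ∀ (t : Term T Unit Unit) (x y : Ω × Unit),
      (if t.g.inv.toDom x.1 = y.1 then 1 / 2 * t.coef (t.g.toRan x.1) * t.g.inv.ran x.1 else 0)
        = if t.g.toDom y.1 = x.1 then 1 / 2 * t.coef y.1 * t.g.ran y.1 else 0 := fun t x y => by
    have := congrArg (fun z : ℝ => 1 / 2 * z) (ker_flip t x y)
    simpa [mul_ite, mul_assoc] using this
  simp only [e]
  exact add_comm _ _

lemma app1_symHalf (S : GOp T Unit Unit) (f : C(Ω, ℝ)) :
    (symHalf S).app1 f = (1 / 2 : ℝ) •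
      ((S.map fun t => t.coef * t.g.ran * f.comp t.g.toDom).sum
        + (S.map fun t => (t.coef * f).comp t.g.toRan * t.g.dom).sum) := by
  have e : ∀ (L : List (Term T Unit Unit)) (F : Term T Unit Unit → C(Ω, ℝ)) (c : ℝ),
      c • (L.map F).sum = (L.map fun t => c • F t).sum := fun L F c => by
    induction L with
    | nil => simp
    | cons a l ih => simp [smul_add, ih]
  rw [smul_add, e, e]
  simp only [symHalf, app1, app, smul, add, tp, List.map_append, List.map_map, List.sum_append,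
    Function.comp_def, if_true]
  congr 2 <;> refine List.map_congr_left fun t _ => ?_
  · rw [smul_mul_assoc, smul_mul_assoc]
  · ext ω
    simp [GElt.inv]
    ring

end GOp

namespace SMasa

lemma sq_split {w p s₁ s₂ a b N q₁ q₂ : ℝ} (hw : 0 ≤ w) (hwle : w ≤ p + s₁ + 1 / 2 * s₂)
    (hp : 0 ≤ p) (hpab : p ≤ a + b) (h1 : s₁ * s₁ ≤ N * q₁) (h2 : s₂ * s₂ ≤ N * q₂) :
    w * w ≤ 8 * (a * a) + 8 * (b * b) + 4 * N * q₁ + N * q₂ := by
  have c6 := mul_self_le_mul_self hw hwle
  have c7 := mul_self_le_mul_self hp hpab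
  nlinarith [sq_nonneg (a - b), sq_nonneg (p - s₁), sq_nonneg (p + s₁ - 1 / 2 * s₂)]

lemma budget {η₀ N c β : ℝ} (hN : 0 ≤ N) (hc : 0 ≤ c) (hη₀ : 0 ≤ η₀)
    (hβ : β = η₀ / (96 * (N + 1) ^ 2 * (c + 1))) : N * (N * (4 * c * β)) ≤ η₀ / 24 := by
  have h : N * N * c ≤ (N + 1) ^ 2 * (c + 1) :=
    mul_le_mul (by nlinarith) (by linarith) hc (sq_nonneg _)
  subst hβ
  field_simp
  nlinarith

variable (T : SMasa M Ω)



/-- the diagonal squares of the error of one graph -/
lemma graph_rem_le {W : M} {a a' cw : C(Ω, ℝ)} {g : GElt T} {C β : ℝ}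
    (hm : ∀ f, ∃ h, W * T.emb f * star W = T.emb h)
    (hm' : ∀ f, ∃ h, star W * T.emb f * W = T.emb h) (hW : ‖W‖ ≤ C)
    (ha : W * star W = T.emb a) (ha' : star W * W = T.emb a') (hcw : 0 ≤ cw)
    (hle : ∀ f, 0 ≤ f → T.emb (cw * g.ran * f.comp g.toDom) ≤ W * T.emb f * star W)
    (hle' : ∀ f, 0 ≤ f → T.emb ((cw * f).comp g.toRan * g.dom) ≤ star W * T.emb f * W)
    (htau : T.tau (a - cw * g.ran) ≤ β) (htau' : T.tau (a' - cw.comp g.toRan * g.dom) ≤ β)
    (R : Part Ω) :
    ∑ e, T.tau (((T.K W (R.e e) - cw * g.ran * (R.e e).comp g.toDom)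
        + (T.K (star W) (R.e e) - (cw * R.e e).comp g.toRan * g.dom))
      * ((T.K W (R.e e) - cw * g.ran * (R.e e).comp g.toDom)
        + (T.K (star W) (R.e e) - (cw * R.e e).comp g.toRan * g.dom))) ≤ 4 * C ^ 2 * β := by
  have hC : 0 ≤ C := (norm_nonneg _).trans hW
  have embmono : ∀ {p q : C(Ω, ℝ)}, T.emb p ≤ T.emb q → p ≤ q := fun {p q} h => by
    have := T.E_mono h
    rwa [T.E_emb, T.E_emb] at this
  have hK : ∀ f, T.emb (T.K W f) = W * T.emb f * star W := fun f => by
    obtain ⟨h, hh⟩ := hm f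
    rw [T.K_apply, hh, T.E_emb]
  have hK' : ∀ f, T.emb (T.K (star W) f) = star W * T.emb f * W := fun f => by
    obtain ⟨h, hh⟩ := hm' f
    rw [T.K_apply, star_star, hh, T.E_emb]
  set ρ := fun e => (T.K W (R.e e) - cw * g.ran * (R.e e).comp g.toDom)
    + (T.K (star W) (R.e e) - (cw * R.e e).comp g.toRan * g.dom) with hρ
  have hρ0 : ∀ e, 0 ≤ ρ e := fun e => add_nonneg
    (sub_nonneg.2 (embmono (by rw [hK]; exact hle _ (R.nonneg e))))
    (sub_nonneg.2 (embmono (by rw [hK']; exact hle' _ (R.nonneg e))))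
  set u₁ := a - cw * g.ran with hu₁
  set u₂ := a' - cw.comp g.toRan * g.dom with hu₂
  have hsum : ∑ e, ρ e = u₁ + u₂ := by
    have e1 : T.K W 1 = a := T.emb_inj (by rw [hK, map_one, mul_one, ha])
    have e2 : T.K (star W) 1 = a' := T.emb_inj (by rw [hK', map_one, mul_one, ha'])
    have hcomp : ∀ g' : C(Ω, Ω), ∀ F : Fin R.n → C(Ω, ℝ),
        ∑ e, (F e).comp g' = (∑ e, F e).comp g' := fun g' F => by
      ext y; simp
    simp only [hρ, Finset.sum_add_distrib, Finset.sum_sub_distrib, ← map_sum,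
      R.isPartition.sum_one, e1, e2, ← Finset.mul_sum, ← Finset.sum_mul, hcomp, mul_one, hu₁, hu₂]
    congr 2
    ext y
    simp
  have hac : ∀ (y : M), ‖y‖ ≤ C → ∀ q : C(Ω, ℝ), T.emb q = y * star y → ∀ ω, q ω ≤ C ^ 2 :=
    fun y hy q hq ω => by
      have := (q.norm_coe_le_norm ω).trans (le_of_eq (T.emb_norm q).symm)
      rw [hq, CStarRing.norm_self_mul_star, Real.norm_eq_abs, ← pow_two] at this
      exact (le_abs_self _).trans (this.trans (pow_le_pow_left₀ (norm_nonneg _) hy 2))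
  have hb : ∀ ω, u₁ ω + u₂ ω ≤ 2 * C ^ 2 := fun ω => by
    have h1 := hac W hW a ha.symm ω
    have h2 := hac (star W) (by rw [norm_star]; exact hW) a' (by rw [star_star]; exact ha'.symm) ω
    have h3 : 0 ≤ cw ω * g.ran ω := mul_nonneg (hcw ω) (idem_nonneg g.ran_idem ω)
    have h4 : 0 ≤ cw (g.toRan ω) * g.dom ω := mul_nonneg (hcw _) (idem_nonneg g.dom_idem ω)
    show (a ω - cw ω * g.ran ω) + (a' ω - cw (g.toRan ω) * g.dom ω) ≤ _
    linarith
  calc ∑ e, T.tau (ρ e * ρ e) ≤ T.tau ((2 * C ^ 2) • (u₁ + u₂)) := by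
        rw [← map_sum]
        refine T.tau_mono (ContinuousMap.le_def.2 fun ω => ?_)
        have h : ∑ e, ρ e ω * ρ e ω ≤ (∑ e, ρ e ω) * (∑ e, ρ e ω) := by
          simpa [pow_two] using Finset.sum_sq_le_sq_sum_of_nonneg (s := Finset.univ)
            (f := fun e => ρ e ω) fun e _ => hρ0 e ω
        have h0 : 0 ≤ ∑ e, ρ e ω := Finset.sum_nonneg fun e _ => hρ0 e ω
        rw [← ContinuousMap.sum_apply, hsum, ContinuousMap.add_apply] at h h0
        simp only [ContinuousMap.sum_apply, ContinuousMap.mul_apply, ContinuousMap.smul_apply,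
          ContinuousMap.add_apply, smul_eq_mul]
        exact h.trans (mul_le_mul_of_nonneg_right (hb ω) h0)
    _ ≤ 4 * C ^ 2 * β := by
        rw [map_smul, map_add, smul_eq_mul]
        have := mul_le_mul_of_nonneg_left (add_le_add htau htau') (by positivity : 0 ≤ 2 * C ^ 2)
        linarith

/-- the atomic part, given the graphs of normalisers -/
theorem atomSpec_of (hG : GraphOf T) : AtomSpec T := by
  intro X hX η₀ hη₀
  set c := ‖X‖ ^ 2 with hc
  have hc0 : 0 ≤ c := sq_nonneg _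
  set κ := T.tau (T.K X 1) with hκ
  have hκ0 : 0 ≤ κ := T.tau_nonneg (T.K_nonneg X fun ω => by simp)
  set θ := η₀ / (48 * (κ + 1)) with hθdef
  have hθ : 0 < θ := by positivity
  set ε := η₀ / (48 * (c + 1)) with hεdef
  have hε : 0 < ε := by positivity
  obtain ⟨d₀, hd₀, hsmall⟩ := T.small X ε hε
  set d := min (d₀ * θ ^ 2) (η₀ / 48) with hddef
  have hd : 0 < d := lt_min (by positivity) (by positivity)
  set D : Part Ω → ℝ := fun P => ∑ i, T.tau (T.K X (P.e i) * T.K X (P.e i)) with hD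
  have hbdd : BddBelow (Set.range D) := ⟨0, by
    rintro _ ⟨P, rfl⟩
    exact Finset.sum_nonneg fun i _ => T.tau_nonneg (mul_nonneg'
      (T.K_nonneg X (P.nonneg i)) (T.K_nonneg X (P.nonneg i)))⟩
  obtain ⟨P₀, hP₀⟩ := exists_lt_of_ciInf_lt (show (⨅ P, D P) < (⨅ P, D P) + d / 2 by linarith)
  set η := d / (2 * (κ + 1)) with hη
  have hη0 : 0 < η := by positivity
  have hloss : ∀ Q, T.loss P₀ X η Q ≤ d := by
    intro Q
    refine (T.loss_le P₀ hη0.le Q).trans ?_
    have h1 : η * κ ≤ d / 2 := by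
      rw [hη, div_mul_eq_mul_div, div_le_iff₀ (by positivity)]
      nlinarith
    have h2 := ciInf_le hbdd (Q.inter P₀)
    show D P₀ - D (Q.inter P₀) + η * κ ≤ _
    linarith
  choose W hWn hWl using fun k : Fin P₀.n × Fin P₀.n =>
    T.exists_pblk_limit (η := η) P₀ hX k.1 k.2
  have hWstar : ∀ k, star (W k) = W k.swap := fun k =>
    T.star_limit P₀ hX (hWl k) (hWl k.swap)
  have hmem : ∀ k f, ∃ h, W k * T.emb f * star (W k) = T.emb h := fun k f => by
    obtain ⟨h, hh⟩ := T.limit_conj_mem P₀ hX (hWl k) (hWl k.swap) f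
    exact ⟨h, hh.symm⟩
  have hmem' : ∀ k f, ∃ h, star (W k) * T.emb f * W k = T.emb h := fun k f => by
    obtain ⟨h, hh⟩ := hmem k.swap f
    rw [← hWstar, star_star] at hh
    exact ⟨h, hh⟩
  choose a ha using fun k => hmem k 1
  choose a' ha' using fun k => hmem' k 1
  simp only [map_one, mul_one] at ha ha'
  set N : ℝ := (Fintype.card (Fin P₀.n × Fin P₀.n) : ℝ) with hN
  have hN0 : 0 ≤ N := Nat.cast_nonneg _
  set β := η₀ / (96 * (N + 1) ^ 2 * (c + 1)) with hβdef
  have hβ : 0 < β := by positivity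
  choose g cf hcf hle hle' htau htau' using fun k =>
    hG (W k) (a k) (a' k) (ha' k) (ha k) (hmem k) (hmem' k) β hβ
  set L : List (Fin P₀.n × Fin P₀.n) := Finset.univ.toList with hL
  set S : GOp T Unit Unit := L.map fun k => ⟨(), (), cf k, g k⟩ with hS
  -- the two halves of the remainder
  set U : C(Ω, ℝ) → C(Ω, ℝ) := fun f => ∑ k, T.K (W k) f with hU
  set r₁ : Fin P₀.n × Fin P₀.n → C(Ω, ℝ) → C(Ω, ℝ) := fun k f =>
    T.K (W k) f - cf k * (g k).ran * f.comp (g k).toDom with hr₁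
  set r₂ : Fin P₀.n × Fin P₀.n → C(Ω, ℝ) → C(Ω, ℝ) := fun k f =>
    T.K (star (W k)) f - (cf k * f).comp (g k).toRan * (g k).dom with hr₂
  have hKW : ∀ k f, T.emb (T.K (W k) f) = W k * T.emb f * star (W k) := fun k f => by
    obtain ⟨h, hh⟩ := hmem k f
    rw [T.K_apply, hh, T.E_emb]
  have hKW' : ∀ k f, T.emb (T.K (star (W k)) f) = star (W k) * T.emb f * W k := fun k f => by
    obtain ⟨h, hh⟩ := hmem' k f
    rw [T.K_apply, star_star, hh, T.E_emb]
  have embmono : ∀ {p q : C(Ω, ℝ)}, T.emb p ≤ T.emb q → p ≤ q := fun {p q} h => by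
    have := T.E_mono h
    rwa [T.E_emb, T.E_emb] at this
  have hr₁0 : ∀ k f, 0 ≤ f → 0 ≤ r₁ k f := fun k f hf =>
    sub_nonneg.2 (embmono (by rw [hKW]; exact hle k f hf))
  have hr₂0 : ∀ k f, 0 ≤ f → 0 ≤ r₂ k f := fun k f hf =>
    sub_nonneg.2 (embmono (by rw [hKW']; exact hle' k f hf))
  have hKsum : ∀ f, (GOp.symHalf S).app1 f = U f - (1 / 2 : ℝ) • ∑ k, (r₁ k f + r₂ k f) := by
    intro f
    rw [GOp.app1_symHalf, hS, List.map_map, List.map_map, hL, Finset.sum_map_toList,
      Finset.sum_map_toList]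
    have e : ∑ k, T.K (star (W k)) f = U f := by
      simp only [hWstar, hU]
      exact Equiv.sum_comp (Equiv.prodComm (Fin P₀.n) (Fin P₀.n)) (fun k => T.K (W k) f)
    simp only [hr₁, hr₂, Finset.sum_add_distrib, Finset.sum_sub_distrib, e, Function.comp_def]
    ext ω
    simp only [ContinuousMap.smul_apply, ContinuousMap.add_apply, ContinuousMap.sub_apply,
      smul_eq_mul]
    rw [show (∑ k, T.K (W k) f) = U f from rfl]
    ring
  -- `U` is below `K`
  set A : Part Ω → C(Ω, ℝ) → C(Ω, ℝ) := fun Q f => T.atomic P₀ X η Q f with hA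
  have hUle : ∀ f, 0 ≤ f → U f ≤ T.K X f := by
    intro f hf
    refine T.le_of_tau_mul_le fun q hq => ?_
    have hterm : ∀ k, T.Tendsto2 atTop (fun Q => T.pblk P₀ X η Q k.1 k.2 * T.emb f *
        star (T.pblk P₀ X η Q k.1 k.2)) (W k * T.emb f * star (W k)) := fun k => by
      simp only [hWstar, T.pblk_star P₀ hX]
      exact ((hWl k).mul_emb T f).mul T (hWl k.swap) (C := ‖X‖ * ‖f‖) fun Q =>
        (norm_mul_le _ _).trans (by rw [T.emb_norm]; gcongr; exact T.norm_pblk_le P₀ hX Q k.1 k.2)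
    have hlim : Tendsto (fun Q => T.tau (q * A Q f)) atTop (𝓝 (T.tau (q * U f))) := by
      simp only [hA, atomic, hU, Finset.mul_sum, map_sum, T.K_apply, T.tau_mul_E]
      exact tendsto_finsetSum _ fun k _ => ((hterm k).const_mul T (T.emb q)).tr_tendsto T
    exact le_of_tendsto hlim (.of_forall fun Q =>
      T.tau_mono (mul_mono' hq (T.atomic_bounds P₀ hX Q hf).1))
  have hKle : ∀ f, 0 ≤ f → (GOp.symHalf S).app1 f ≤ T.K X f := by
    intro f hf
    rw [hKsum]
    refine le_trans (sub_le_self _ ?_) (hUle f hf)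
    exact smul_nonneg (by norm_num)
      (Finset.sum_nonneg fun k _ => add_nonneg (hr₁0 k f hf) (hr₂0 k f hf))
  refine ⟨GOp.symHalf S, ?_, GOp.ker_symHalf S, hKle, ?_⟩
  · intro t ht
    simp only [GOp.symHalf, GOp.smul, GOp.add, GOp.tp, hS, List.map_map, List.map_append,
      List.mem_append, List.mem_map, Function.comp_def] at ht
    rcases ht with ⟨k, -, rfl⟩ | ⟨k, -, rfl⟩
    · exact smul_nonneg (by norm_num) (hcf k)
    · exact smul_nonneg (by norm_num) (ContinuousMap.le_def.2 fun ω => hcf k ((g k).toRan ω))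
  -- the diagonal squares of the remainder
  have hev : ∀ᶠ Q : Part Ω in atTop, ∀ k,
      T.n2 (T.pblk P₀ X η Q k.1 k.2 - W k) ^ 2 ≤ β := by
    refine eventually_all.2 fun k => ?_
    have h := Tendsto.pow (hWl k) 2
    rw [zero_pow two_ne_zero] at h
    exact (h.eventually (gt_mem_nhds hβ)).mono fun Q hQ => hQ.le
  obtain ⟨Q, hQ⟩ := hev.exists
  have hlossθ : T.loss P₀ X η Q ≤ d₀ * θ ^ 2 := (hloss Q).trans (min_le_left _ _)
  filter_upwards [eventually_ge_atTop (Q.inter P₀),
    T.sum_lossR_sq_le P₀ hX hη0.le Q hε hθ hsmall hlossθ] with R hR hR2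
  intro f hf
  set z := fun (k : Fin P₀.n × Fin P₀.n) (i : Fin R.n) =>
    T.E (T.pblk P₀ X η Q k.1 k.2 * T.emb (R.e i) * star (T.pblk P₀ X η Q k.1 k.2) -
      W k * T.emb (R.e i) * star (W k)) with hz
  set ρ := fun (k : Fin P₀.n × Fin P₀.n) (i : Fin R.n) => r₁ k (R.e i) + r₂ k (R.e i) with hρ
  set lL := fun i => T.lossL P₀ X η Q (R.e i) with hlL
  set lR := fun i => T.lossR P₀ X η Q (R.e i) with hlR
  -- pointwise
  have hterm : ∀ e, T.tau ((T.K X (f e) - (GOp.symHalf S).app1 (f e)) *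
      (T.K X (f e) - (GOp.symHalf S).app1 (f e))) ≤
      8 * T.tau (lL e * lL e) + 8 * T.tau (lR e * lR e)
        + 4 * N * ∑ k, T.tau (z k e * z k e) + N * ∑ k, T.tau (ρ k e * ρ k e) := by
    intro e
    obtain ⟨b1, b2⟩ := T.atomic_bounds (η := η) P₀ hX Q (R.nonneg e)
    simp only [← smul_eq_mul, ← map_smul T.tau, ← map_sum T.tau, ← map_add T.tau]
    refine T.tau_mono (ContinuousMap.le_def.2 fun ω => ?_)
    have hlin : ∀ u v : C(Ω, ℝ), (GOp.symHalf S).app1 (u - v)
        = (GOp.symHalf S).app1 u - (GOp.symHalf S).app1 v := fun u v => by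
      simp only [hKsum, hr₁, hr₂, hU, map_sub, mul_sub, ContinuousMap.sub_comp, sub_mul,
        Finset.sum_add_distrib, Finset.sum_sub_distrib, smul_sub, smul_add]
      abel
    have habs : |(T.K X (f e) - (GOp.symHalf S).app1 (f e)) ω|
        ≤ (T.K X (R.e e) - (GOp.symHalf S).app1 (R.e e)) ω := by
      have k1 := hKle (R.e e - f e) (ContinuousMap.le_def.2 fun y => by
        have := (abs_le.1 (hf e y)).2
        simp only [ContinuousMap.zero_apply, ContinuousMap.sub_apply]; linarith) ω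
      have k2 := hKle (R.e e - -(f e)) (ContinuousMap.le_def.2 fun y => by
        have := (abs_le.1 (hf e y)).1
        simp only [ContinuousMap.zero_apply, ContinuousMap.sub_apply, ContinuousMap.neg_apply]
        linarith) ω
      have en : (GOp.symHalf S).app1 (-(f e)) = -(GOp.symHalf S).app1 (f e) := by
        have h := hlin 0 (f e)
        have h0 := hlin 0 0
        simp only [sub_self] at h h0
        rw [zero_sub] at h
        rw [h, h0, zero_sub]
      rw [hlin, map_sub] at k1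
      rw [hlin, map_sub, en, map_neg] at k2
      simp only [ContinuousMap.sub_apply, sub_neg_eq_add,
        ContinuousMap.toFun_eq_coe, ContinuousMap.add_apply] at k1 k2 ⊢
      exact abs_le.2 ⟨by linarith, by linarith⟩
    have hsplit : T.K X (R.e e) - (GOp.symHalf S).app1 (R.e e) =
        (T.K X (R.e e) - A Q (R.e e)) + (∑ k, z k e) + (1 / 2 : ℝ) • ∑ k, ρ k e := by
      rw [hKsum]
      have e1 : ∀ k, z k e = T.E (T.pblk P₀ X η Q k.1 k.2 * T.emb (R.e e) *
          star (T.pblk P₀ X η Q k.1 k.2)) - T.K (W k) (R.e e) := fun k => by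
        simp only [hz, map_sub, T.K_apply]
      simp only [e1, Finset.sum_sub_distrib, hA, atomic, hU, hρ]
      abel
    rw [hsplit] at habs
    simp only [smul_eq_mul, ContinuousMap.add_apply, ContinuousMap.mul_apply,
      ContinuousMap.smul_apply, ContinuousMap.sum_apply, ContinuousMap.sub_apply] at habs ⊢
    have c1 : A Q (R.e e) ω ≤ T.K X (R.e e) ω := b1 ω
    have c2 : T.K X (R.e e) ω - A Q (R.e e) ω ≤ lL e ω + lR e ω := b2 ω
    have c3 := sq_sum_le_card_mul_sum_sq (s := Finset.univ) (f := fun k => z k e ω)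
    have c4 := sq_sum_le_card_mul_sum_sq (s := Finset.univ) (f := fun k => ρ k e ω)
    simp only [Finset.card_univ, ← hN, pow_two] at c3 c4
    rw [← abs_mul_abs_self ((T.K X (f e)) ω - ((GOp.symHalf S).app1 (f e)) ω)]
    exact sq_split (abs_nonneg _) habs (sub_nonneg.2 c1) c2 c3 c4
  refine (Finset.sum_le_sum fun e _ => hterm e).trans ?_
  simp only [Finset.sum_add_distrib, ← Finset.mul_sum]
  rw [Finset.sum_comm (f := fun e k => T.tau (z k e * z k e)),
    Finset.sum_comm (f := fun e k => T.tau (ρ k e * ρ k e))]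
  have h1 : ∑ e, T.tau (lL e * lL e) ≤ η₀ / 48 :=
    ((T.sum_lossL_sq_le P₀ hR).trans (hloss Q)).trans (min_le_right _ _)
  have h2 : ∑ e, T.tau (lR e * lR e) ≤ 3 * (η₀ / 48) := by
    refine hR2.trans ?_
    have a1 : θ * κ ≤ η₀ / 48 := by
      rw [hθdef, div_mul_eq_mul_div, div_le_iff₀ (by positivity)]
      nlinarith
    have a2 : ε ≤ η₀ / 48 ∧ ‖X‖ ^ 2 * ε ≤ η₀ / 48 := by
      rw [← hc, hεdef]
      constructor
      · exact div_le_div_of_nonneg_left hη₀.le (by norm_num) (by linarith)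
      · rw [mul_div_assoc', div_le_iff₀ (by positivity)]
        nlinarith
    linarith [a2.1, a2.2]
  have hW1 : ∀ k, ∑ e, T.tau (z k e * z k e) ≤ 4 * c * β := by
    intro k
    refine (T.sum_diff_sq_le (T.norm_pblk_le P₀ hX Q k.1 k.2) (hWn k) R).trans ?_
    rw [star_sub, T.pblk_star P₀ hX, hWstar]
    exact mul_le_mul_of_nonneg_left (hQ k.swap) (by positivity)
  have hW2 : ∀ k, ∑ e, T.tau (ρ k e * ρ k e) ≤ 4 * c * β := fun k =>
    T.graph_rem_le (hmem k) (hmem' k) (hWn k) (ha k) (ha' k) (hcf k) (hle k) (hle' k) (htau k)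
      (htau' k) R
  have h3 := Finset.sum_le_sum fun k (_ : k ∈ Finset.univ) => hW1 k
  have h4 := Finset.sum_le_sum fun k (_ : k ∈ Finset.univ) => hW2 k
  simp only [Finset.sum_const, Finset.card_univ, nsmul_eq_mul, ← hN] at h3 h4
  have h5 := budget hN0 hc0 hη₀.le hβdef
  have h6 := mul_le_mul_of_nonneg_left h3 (by positivity : 0 ≤ 4 * N)
  have h7 := mul_le_mul_of_nonneg_left h4 hN0
  linarith

end SMasa

end Vale.Agent.P078.T3
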