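import Mathlib
import Vale.Agent.P078.Type3.Atom.Main
import Vale.Agent.P078.Type3.Graph.Exists

/-! `AtomSpec` holds. -/

noncomputable section

open scoped ComplexOrder

namespace Vale.Agent.P078.T3

universe u v

variable {M : Type u} [CStarAlgebra M] [PartialOrder M] [StarOrderedRing M]
  {Ω : Type v} [TopologicalSpace Ω] [CompactSpace Ω] [T2Space Ω]

/-- every map `f ↦ E (X f X)` has a symmetric atomic part carried by finitely many graphs -/
theorem atomSpec (T : SMasa M Ω) : AtomSpec T :=
  T.atomSpec_of fun W a a' h' h hW hW' _η hη => exists_gelt T W a a' h' h hW hW' hη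

end Vale.Agent.P078.T3
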